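import Vale.Agent.P300.H732.Hol
import Vale.Agent.P300.H707.SphInst
import Vale.Agent.P300.H242.YVal

/-!
# P300 [HOL] for helper707's spheres `S b` in helper242's `Y`
-/

set_option autoImplicit false
set_option linter.style.haveILetI false

open Set Filter Topology
open scoped Manifold ContDiff

namespace Vale.Agent.P300.H732

open Vale.Agent.P300.Cpx Vale.Agent.P300.Mod Vale.Agent.P300.H753
open Vale.Agent.P300.H242 (kapY kapYX yData io)

/-- any chart in the sense of helper707 is a chart. -/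
theorem holChart_of_isCh {κ : ℂ × ℂ → ℂ × ℂ} {k : ℂ × ℂ → H242.Y} (h : H707.IsCh io κ k)
    (hκ : ∀ w ∈ H142.W, κ w ∈ H142.U ∧ AnalyticAt ℂ κ w) : HolChart yData H142.R k where
  opn := Spec.isOpen_R
  cont := h.cont
  hol := by
    refine ⟨κ, fun w hw h1 h2 => ?_⟩
    have hW := Spec.mem_W_of_mem_R hw h1 h2
    exact ⟨(hκ w hW).2, (hκ w hW).1, h.eq w hw h1 h2⟩

theorem holChart_kapY (ν : Fin 15) : HolChart yData H142.R (kapY ν) :=
  holChart_of_isCh (H707.isCh_kapY ν) fun _ hw => ⟨Spec.kap_mem ν hw, Spec.analyticAt_kap ν hw⟩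

theorem holChart_kapYX : HolChart yData H142.R kapYX :=
  holChart_of_isCh H707.isCh_kapYX fun _ hw => ⟨Spec.kapX_mem hw, Spec.analyticAt_kapX hw⟩

theorem slit_or (w : ℂ) : w ∈ Complex.slitPlane ∨ 1 - w ∈ Complex.slitPlane := by
  by_cases h : w ∈ Complex.slitPlane
  · exact Or.inl h
  · right
    rw [Complex.mem_slitPlane_iff, not_or, not_lt, not_not] at h
    left
    rw [Complex.sub_re, Complex.one_re]
    linarith [h.1]

/-- a curve glued from two charts. -/
theorem holCurve_of_two {β : ℂ → H242.Y} {k k' : ℂ × ℂ → H242.Y} {γ γ' : ℂ → ℂ × ℂ}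
    (hk : HolChart yData H142.R k) (hk' : HolChart yData H142.R k')
    (hγ : ∀ w, AnalyticAt ℂ γ w) (hγ' : ∀ w, AnalyticAt ℂ γ' w)
    (hw : ∀ w, w ∈ Complex.slitPlane → γ w ∈ H142.R ∧ β w = k (γ w))
    (hw' : ∀ w, 1 - w ∈ Complex.slitPlane → γ' w ∈ H142.R ∧ β w = k' (γ' w)) :
    HolCurve yData β := by
  intro w
  rcases slit_or w with h | h
  · refine ⟨_, k, γ, hk, hγ w, (hw w h).1, ?_⟩
    filter_upwards [Complex.isOpen_slitPlane.mem_nhds h] with z hz
    exact (hw z hz).2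
  · refine ⟨_, k', γ', hk', hγ' w, (hw' w h).1, ?_⟩
    have ho : IsOpen {w : ℂ | 1 - w ∈ Complex.slitPlane} :=
      Complex.isOpen_slitPlane.preimage (continuous_const.sub continuous_id)
    filter_upwards [ho.mem_nhds h] with z hz
    exact (hw' z hz).2

theorem holCurve_S (b : Bool) : HolCurve yData (H707.S b).f := by
  have a1 : ∀ w : ℂ, AnalyticAt ℂ (fun z : ℂ => 1 - z) w := fun w =>
    analyticAt_const.sub analyticAt_id
  have a0 : ∀ w : ℂ, AnalyticAt ℂ (fun _ : ℂ => (0 : ℂ)) w := fun w => analyticAt_const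
  have aid : ∀ w : ℂ, AnalyticAt ℂ (fun z : ℂ => z) w := fun w => analyticAt_id
  cases b
  · refine holCurve_of_two (holChart_kapY 5) (holChart_kapY 6) (γ := fun w => (1 - w, 0))
      (γ' := fun w => (w, 0)) (fun w => (a1 w).prod (a0 w)) (fun w => (aid w).prod (a0 w)) ?_ ?_
    · intro w hw
      have h : (1 - w, (0 : ℂ)) ∈ H142.R := H707.mem_R_zero.2 (by simpa using hw)
      exact ⟨h, H707.S_f0 h⟩
    · intro w hw
      have h : (w, (0 : ℂ)) ∈ H142.R := H707.mem_R_zero.2 hw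
      exact ⟨h, H707.S_f1 h⟩
  · refine holCurve_of_two (holChart_kapY 5) holChart_kapYX (γ := fun w => (0, 1 - w))
      (γ' := fun w => (0, w)) (fun w => (a0 w).prod (a1 w)) (fun w => (a0 w).prod (aid w)) ?_ ?_
    · intro w hw
      have h : ((0 : ℂ), 1 - w) ∈ H142.R := H707.zero_mem_R_iff.2 (by simpa using hw)
      exact ⟨h, H707.S_f0' h⟩
    · intro w hw
      have h : ((0 : ℂ), w) ∈ H142.R := H707.zero_mem_R_iff.2 hw
      exact ⟨h, H707.S_f1' h⟩

variable {X0 F : Type} [TopologicalSpace X0] {pr : X0 → H142.U}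

/-- **[HOL] for the two spheres of the bad fibre**: the `hol` hypothesis of helper839's
`end_of_orbits_good`. -/
theorem hol_S (D : Lifts H142.R kapU pr F) (b : Bool) (e : C(ℂ, (D.models yData).Cmp)) (m : ℕ)
    (h : ∀ w, (D.models yData).proj (e w) = (H707.S b).f (w ^ m)) :
    letI := (cpxF D yData).atlas.charted
    ContMDiff 𝓘(ℂ) 𝓘(ℂ, Fin 2 → ℂ) ω e :=
  hol D yData (holCurve_S b) e.continuous h

end Vale.Agent.P300.H732
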