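import Vale.Agent.P300.H749.Inst
import Vale.Agent.P300.H874.Over

/-!
# P300 [HOL]: continuous curves in `X_F` over holomorphic curves of `Y` are holomorphic

For ANY value `E : YData H142.R kapU Y` (no complex structure on `Y` is used): a curve of `Y` is
holomorphic (`HolCurve`) if it is locally `k ∘ γ` with `γ` analytic and `k` a chart (`HolChart`):
continuous on an open subset of `ℂ × ℂ` and analytic in the coordinates of `U` off the axes.
-/

set_option autoImplicit false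
set_option linter.style.haveILetI false

open Set Filter Topology
open scoped Manifold ContDiff

namespace Vale.Agent.P300.H732

open Vale.Agent.P300.Cpx Vale.Agent.P300.Mod Vale.Agent.P300.H753

variable {Y : Type} [TopologicalSpace Y]

/-- a chart of `Y`: continuous on the open set `Ω`, analytic in the coordinates of `U` off the
axes. -/
structure HolChart (E : YData H142.R kapU Y) (Ω : Set (ℂ × ℂ)) (k : ℂ × ℂ → Y) : Prop where
  opn : IsOpen Ω
  cont : ContinuousOn k Ω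
  hol : ∃ κ : ℂ × ℂ → ℂ × ℂ, ∀ w ∈ Ω, w.1 ≠ 0 → w.2 ≠ 0 →
    AnalyticAt ℂ κ w ∧ ∃ h : κ w ∈ H142.U, k w = E.inc ⟨κ w, h⟩

/-- the charts of the table are charts. -/
theorem holChart_kY (E : YData H142.R kapU Y) (ν : Fin 15) : HolChart E H142.R (E.kY ν) where
  opn := Spec.isOpen_R
  cont := E.cont ν
  hol := by
    refine ⟨H142.kap ν, fun w hw h1 h2 => ?_⟩
    have hW := Spec.mem_W_of_mem_R hw h1 h2
    refine ⟨Spec.analyticAt_kap ν hW, Spec.kap_mem ν hW, ?_⟩
    rw [← E.inc_kap ν w ⟨hw, h1, h2⟩]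
    congr 1
    exact Subtype.ext (kapU_val hW)

/-- the coordinates of the chart `ν` of `Y`. -/
noncomputable def coY (E : YData H142.R kapU Y) (ν : Fin 15) (y : Y) : ℂ × ℂ :=
  Function.invFunOn (E.kY ν) H142.R y

theorem coY_kY (E : YData H142.R kapU Y) (ν : Fin 15) {w : ℂ × ℂ} (hw : w ∈ H142.R) :
    coY E ν (E.kY ν w) = w := (E.inj ν).leftInvOn_invFunOn hw

theorem kY_coY (E : YData H142.R kapU Y) (ν : Fin 15) {y : Y} (hy : y ∈ E.kY ν '' H142.R) :
    E.kY ν (coY E ν y) = y ∧ coY E ν y ∈ H142.R := by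
  obtain ⟨w, hw, rfl⟩ := hy
  rw [coY_kY E ν hw]
  exact ⟨rfl, hw⟩

theorem isOpen_img (E : YData H142.R kapU Y) (ν : Fin 15) : IsOpen (E.kY ν '' H142.R) :=
  E.opn ν _ subset_rfl Spec.isOpen_R

theorem continuousOn_coY (E : YData H142.R kapU Y) (ν : Fin 15) :
    ContinuousOn (coY E ν) (E.kY ν '' H142.R) := by
  rw [continuousOn_open_iff (isOpen_img E ν)]
  intro O hO
  have h : E.kY ν '' H142.R ∩ coY E ν ⁻¹' O = E.kY ν '' (H142.R ∩ O) := by
    ext y
    constructor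
    · rintro ⟨⟨w, hw, rfl⟩, hy⟩
      rw [mem_preimage, coY_kY E ν hw] at hy
      exact ⟨w, ⟨hw, hy⟩, rfl⟩
    · rintro ⟨w, ⟨hw, hwO⟩, rfl⟩
      refine ⟨⟨w, hw, rfl⟩, ?_⟩
      rw [mem_preimage, coY_kY E ν hw]
      exact hwO
  rw [h]
  exact E.opn ν _ inter_subset_left (Spec.isOpen_R.inter hO)

/-- **Transitions are holomorphic**, by removable singularities. -/
theorem HolChart.analyticAt {E : YData H142.R kapU Y} {Ω : Set (ℂ × ℂ)} {k : ℂ × ℂ → Y}
    (hk : HolChart E Ω k) (ν : Fin 15) {w : ℂ × ℂ} (hw : w ∈ Ω) (hy : k w ∈ E.kY ν '' H142.R) :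
    AnalyticAt ℂ (fun z : E2 => toE2 (coY E ν (k (toP z)))) (toE2 w) := by
  set V : Set (ℂ × ℂ) := Ω ∩ k ⁻¹' (E.kY ν '' H142.R) with hV
  have hVo : IsOpen V := hk.cont.isOpen_inter_preimage hk.opn (isOpen_img E ν)
  have hV' : IsOpen (toP ⁻¹' V) := hVo.preimage continuous_toP
  have hc : ContinuousOn (fun z : E2 => toE2 (coY E ν (k (toP z)))) (toP ⁻¹' V) := by
    refine continuous_toE2.comp_continuousOn ?_
    refine (continuousOn_coY E ν).comp (hk.cont.comp continuous_toP.continuousOn ?_) ?_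
    · intro z hz; exact hz.1
    · intro z hz; exact hz.2
  obtain ⟨κ, hκ⟩ := hk.hol
  have hd : DifferentiableOn ℂ (fun z : E2 => toE2 (coY E ν (k (toP z)))) (toP ⁻¹' V ∩ offAx) := by
    have h1 : ∀ z ∈ toP ⁻¹' V ∩ offAx, toE2 (coY E ν (k (toP z))) =
        cE2 (Spec.kapInv ν (κ (cE2.symm z))) := by
      rintro z ⟨hz, hz0⟩
      have ha : (toP z).1 ≠ 0 := left_ne_zero_of_mul hz0
      have hb : (toP z).2 ≠ 0 := right_ne_zero_of_mul hz0
      obtain ⟨-, hU, hkz⟩ := hκ _ hz.1 ha hb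
      obtain ⟨h2, h3⟩ := kY_coY E ν hz.2
      have h4 : coY E ν (k (toP z)) ∈ Rp H142.R := by
        refine E.bdry ν _ h3 ?_
        rw [h2, hkz]
        exact mem_range_self _
      have h5 : kapU ν (coY E ν (k (toP z))) = ⟨κ (toP z), hU⟩ := by
        apply E.inc_inj
        rw [E.inc_kap ν _ h4, h2, hkz]
      have h6 : H142.kap ν (coY E ν (k (toP z))) = κ (toP z) := by
        rw [← kapU_val (Rp_subset_W h4), h5]
      rw [cE2_apply, cE2_symm_apply, ← h6, Spec.kapInv_kap ν (Rp_subset_W h4)]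
    refine DifferentiableOn.congr ?_ h1
    rintro z ⟨hz, hz0⟩
    have ha : (toP z).1 ≠ 0 := left_ne_zero_of_mul hz0
    have hb : (toP z).2 ≠ 0 := right_ne_zero_of_mul hz0
    obtain ⟨han, hU, -⟩ := hκ _ hz.1 ha hb
    refine DifferentiableAt.differentiableWithinAt ?_
    have e1 : DifferentiableAt ℂ (fun z : E2 => κ (cE2.symm z)) z := by
      refine DifferentiableAt.comp (g := κ) (f := fun z : E2 => cE2.symm z) z ?_
        cE2.symm.differentiableAt
      exact han.differentiableAt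
    have e2 : DifferentiableAt ℂ (fun z : E2 => Spec.kapInv ν (κ (cE2.symm z))) z :=
      DifferentiableAt.comp (g := Spec.kapInv ν) (f := fun z : E2 => κ (cE2.symm z)) z
        (Spec.analyticAt_kapInv ν hU).differentiableAt e1
    exact (cE2 : (ℂ × ℂ) →L[ℂ] E2).differentiableAt.comp z e2
  have h3 := diffOn_of_offAx' hV' hc hd
  have h4 := contDiffOn_of_diff hV' h3
  have hmem : toE2 w ∈ toP ⁻¹' V := ⟨hw, hy⟩
  exact (h4.contDiffAt (hV'.mem_nhds hmem)).analyticAt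

/-- holomorphic curves of `Y`. -/
def HolCurve (E : YData H142.R kapU Y) (β : ℂ → Y) : Prop :=
  ∀ w, ∃ (Ω : Set (ℂ × ℂ)) (k : ℂ × ℂ → Y) (γ : ℂ → ℂ × ℂ), HolChart E Ω k ∧ AnalyticAt ℂ γ w ∧
    γ w ∈ Ω ∧ ∀ᶠ z in 𝓝 w, β z = k (γ z)

theorem HolCurve.analyticAt {E : YData H142.R kapU Y} {β : ℂ → Y} (hβ : HolCurve E β) {w : ℂ}
    (ν : Fin 15) (hw : β w ∈ E.kY ν '' H142.R) (j : Fin 2) :
    AnalyticAt ℂ (fun z => toE2 (coY E ν (β z)) j) w := by
  obtain ⟨Ω, k, γ, hk, hγ, hγw, hev⟩ := hβ w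
  have h0 : β w = k (γ w) := hev.self_of_nhds
  have h1 := hk.analyticAt ν hγw (h0 ▸ hw)
  have h2 : AnalyticAt ℂ (fun z => toE2 (γ z)) w := by
    have h3 : AnalyticAt ℂ (fun z => cE2 (γ z)) w :=
      (cE2 : (ℂ × ℂ) →L[ℂ] E2).analyticAt _ |>.comp hγ
    refine h3.congr (Eventually.of_forall fun z => cE2_apply _)
  have h3 : AnalyticAt ℂ (fun z => toE2 (coY E ν (k (toP (toE2 (γ z)))))) w :=
    AnalyticAt.comp (g := fun z : E2 => toE2 (coY E ν (k (toP z)))) (f := fun z => toE2 (γ z))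
      h1 h2
  have h4 : AnalyticAt ℂ (fun z => toE2 (coY E ν (k (toP (toE2 (γ z))))) j) w :=
    (ContinuousLinearMap.proj (R := ℂ) (φ := fun _ : Fin 2 => ℂ) j).analyticAt _ |>.comp h3
  refine h4.congr ?_
  filter_upwards [hev] with z hz
  rw [hz]
  rfl

variable {X0 S : Type} [TopologicalSpace X0] {pr : X0 → H142.U}

/-- **[HOL]** -/
theorem hol [T2Space Y] [LocallyCompactSpace Y] (D : Lifts H142.R kapU pr S)
    (E : YData H142.R kapU Y) {β : ℂ → Y} (hβ : HolCurve E β)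
    {e : ℂ → (D.models E).Cmp} (he : Continuous e) {m : ℕ}
    (h : ∀ w, (D.models E).proj (e w) = β (w ^ m)) :
    letI := (cpxF D E).atlas.charted
    ContMDiff 𝓘(ℂ) 𝓘(ℂ, Fin 2 → ℂ) ω e := by
  have key : ∀ (i : D.I) (x : (D.models E).Cmp), x ∈ ((cpxF D E).atlas.e i).source →
      ∃ p : D.M i, x = (D.models E).hat i p ∧ (cpxF D E).atlas.e i x = p.1 ∧
        (D.models E).proj x = E.kY i.1 (pw (D.pp i) (D.qq i) (toP p.1)) := by
    intro i x hx
    have hs : ((cpxF D E).atlas.e i).source = range ((D.models E).hat i) :=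
      (cpxF D E).atlas_source i
    rw [hs] at hx
    obtain ⟨p, rfl⟩ := hx
    refine ⟨p, rfl, ?_, (D.models E).proj_hat i p⟩
    exact (cpxF D E).atlas_hat i p
  refine H874.contMDiff_of_base (cpxF D E).atlas (π := (D.models E).proj)
    (n := fun i : D.I => ![D.pp i, D.qq i])
    (κ := fun (i : D.I) y => toE2 (coY E i.1 y)) ?_ ?_ ?_ he h
  · intro i k
    change D.I at i
    fin_cases k
    · exact (D.ord' i).p0.ne'
    · exact (D.ord' i).q0.ne'
  · intro i x hx k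
    change D.I at i
    obtain ⟨p, -, h2, h3⟩ := key i x hx
    rw [h3, coY_kY E _ p.2]
    show _ = ((cpxF D E).atlas.e i x k) ^ _
    rw [h2]
    fin_cases k
    · rfl
    · rfl
  · rintro i w ⟨x, hx, hxw⟩ k
    change D.I at i
    obtain ⟨p, -, -, h3⟩ := key i x hx
    exact hβ.analyticAt i.1 ⟨_, p.2, by rw [← hxw, h3]⟩ k

end Vale.Agent.P300.H732
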